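import Vale.Agent.P245.Gen2.Final

/-!
# P245: the logarithmic Sobolev constant of subgaussian log-concave measures in dimension `n`
-/

open MeasureTheory
open scoped ENNReal

namespace Vale.Agent.Results.P245.PolylogLogSobolev

/-- Centred log-concave linearly `a`-subgaussian measures on `ℝ^n` satisfy a logarithmic Sobolev
inequality with constant `C a^2 (1 + log n)^2`. -/
theorem result : ∃ C : ℝ, 0 < C ∧ ∀ (n : ℕ) (ρ : (Fin n → ℝ) → ℝ),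
    Measurable ρ → (∀ x, 0 ≤ ρ x) → ∫⁻ x, ENNReal.ofReal (ρ x) = 1 →
    (∀ x y (s t : ℝ), 0 < s → 0 < t → s + t = 1 → ρ x ^ s * ρ y ^ t ≤ ρ (s • x + t • y)) →
    (∀ i, ∫ x, x i ∂((volume : Measure (Fin n → ℝ)).withDensity fun x => ENNReal.ofReal (ρ x))
      = 0) →
    ∀ a : ℝ, 0 < a →
    (∀ θ : Fin n → ℝ, ∑ i, θ i ^ 2 = 1 →
      ∫⁻ x, ENNReal.ofReal (Real.exp ((∑ i, θ i * x i) ^ 2 / a ^ 2))
        ∂((volume : Measure (Fin n → ℝ)).withDensity fun x => ENNReal.ofReal (ρ x)) ≤ 2) →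
    ∀ f : (Fin n → ℝ) → ℝ, ContDiff ℝ (⊤ : ℕ∞) f → HasCompactSupport f →
      let μ := (volume : Measure (Fin n → ℝ)).withDensity fun x => ENNReal.ofReal (ρ x)
      (∫ x, f x ^ 2 * Real.log (f x ^ 2) ∂μ)
          - (∫ x, f x ^ 2 ∂μ) * Real.log (∫ x, f x ^ 2 ∂μ)
        ≤ C * a ^ 2 * (1 + Real.log n) ^ 2
          * ∫ x, ∑ i, (fderiv ℝ f x (Pi.single i 1)) ^ 2 ∂μ := by
  obtain ⟨C, hC, h⟩ := Vale.Agent.P245.Gen2.lsi_polylog
  exact ⟨C, hC, fun n ρ hm h0 h1 hlc hmean a ha hs f hf hc =>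
    h n ρ hm h0 h1 hlc hmean a ha hs f (Vale.Agent.P245.Tame.of_compact hf hc)⟩

end Vale.Agent.Results.P245.PolylogLogSobolev
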